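import Vale.Agent.P092.H831.Quad

/-!
P092, Team P (helper821), [P-OPPINC] = (8.3): OPPOSITE SOURCE POINTS HAVE OPPOSITE VALUES.

Any generalised quadrangle as source and target, no group: if the values of all pairs of source points are
collinear, then (a) every point value is on every line value, (b) all line values are equal,
against the agreement hypothesis for lines.
-/

set_option linter.all false

namespace Vale.Agent.P092.H821.P

open Set Topology
open Vale.Agent.P092.H218 (loc loc_op mul_ap)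
open Vale.Agent.P092.H232 (two_ind split_inc Nin)
open Vale.Agent.P092.H831 (ts_star tot_vec tot_left tot_right)
open Vale.Agent.P092.H835 (exists_cut isClosed_meet isClosed_meet')

section quad

variable {X Z K : Type*} [TopologicalSpace X] [CompactSpace X] [T2Space X]
  [TopologicalSpace Z] [CompactSpace Z] [T2Space Z]
  [NormedAddCommGroup K] [InnerProductSpace ℂ K] [CompleteSpace K]

/-- Collinear points. -/
def Col (Inc : X → Z → Prop) (x y : X) : Prop := ∃ n, Inc x n ∧ Inc y n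

omit [CompactSpace X] [T2Space X] [T2Space Z] in
theorem isClosed_col {Inc : X → Z → Prop} (hInc : IsClosed {p : X × Z | Inc p.1 p.2}) :
    IsClosed {p : X × X | Col Inc p.1 p.2} := by
  have h1 : IsClosed {q : (X × X) × Z | Inc q.1.1 q.2 ∧ Inc q.1.2 q.2} :=
    (hInc.preimage (f := fun q : (X × X) × Z => (q.1.1, q.2)) (by fun_prop)).inter
      (hInc.preimage (f := fun q : (X × X) × Z => (q.1.2, q.2)) (by fun_prop))
  have h2 := isClosedMap_fst_of_compactSpace (X := X × X) (Y := Z) _ h1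
  have e : {p : X × X | Col Inc p.1 p.2} =
      Prod.fst '' {q : (X × X) × Z | Inc q.1.1 q.2 ∧ Inc q.1.2 q.2} := by
    ext p
    constructor
    · rintro ⟨n, hn, hn'⟩
      exact ⟨(p, n), ⟨hn, hn'⟩, rfl⟩
    · rintro ⟨⟨p', n⟩, ⟨hn, hn'⟩, rfl⟩
      exact ⟨n, hn, hn'⟩
  rw [e]
  exact h2

/-- Two points of one line are collinear. -/
theorem col_of_flag {Inc : X → Z → Prop} (hInc : IsClosed {p : X × Z | Inc p.1 p.2})
    (α β : C(X, ℂ) →⋆ₐ[ℂ] (K →L[ℂ] K)) (ν : C(Z, ℂ) →⋆ₐ[ℂ] (K →L[ℂ] K))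
    (cαβ : ∀ f g, Commute (α f) (β g))
    (iα : ∀ f g, Nin Inc f g → α f * ν g = 0) (iβ : ∀ f g, Nin Inc f g → β f * ν g = 0)
    (f g : C(X, ℂ)) (h : Nin (Col Inc) f g) : α f * β g = 0 := by
  refine two_ind (A := K →L[ℂ] K) (S₁ := tsupport ⇑f) (S₂ := tsupport ⇑g)
    (fun f g => α f * β g) (fun u u' a => by simp only [map_add, add_mul])
    (fun u a a' => by simp only [mul_add, map_add])
    (isClosed_tsupport _).isCompact (isClosed_tsupport _).isCompact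
    (fun x hx y hy => ?_) f g subset_rfl subset_rfl
  have hc : ∀ n ∈ tsupport ⇑(1 : C(Z, ℂ)), Inc x n → Inc y n → False :=
    fun n _ h1 h2 => h x hx y hy ⟨n, h1, h2⟩
  obtain ⟨v₁, v₂, hv, O, V, hO, hxO, hV, hyV, e1, e2⟩ := split_inc hInc hInc _ hc
  refine ⟨O, V, hO, hxO, hV, hyV, fun u a hu ha => ?_⟩
  have f1 : α u * ν v₁ = 0 := iα _ _ (e1 _ hu)
  have f2 : β a * ν v₂ = 0 := iβ _ _ (e2 _ ha)
  have h3 : α u * β a = α u * β a * ν 1 := by rw [map_one, mul_one]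
  show α u * β a = 0
  rw [h3, hv, map_add, mul_add, (cαβ u a).eq, mul_assoc, f1, mul_zero, zero_add, ← (cαβ u a).eq,
    mul_assoc, f2, mul_zero]

/-- **Step (a).** If the values of `x` and of two points of a line are always collinear, the value
of `x` is on the value of the line. -/
theorem step_a {Inc : X → Z → Prop} (hInc : IsClosed {p : X × Z | Inc p.1 p.2})
    (tri : ∀ x n y y', ¬ Inc x n → Inc y n → Inc y' n → Col Inc x y → Col Inc x y' → y = y')
    (ξ α β : C(X, ℂ) →⋆ₐ[ℂ] (K →L[ℂ] K)) (ν : C(Z, ℂ) →⋆ₐ[ℂ] (K →L[ℂ] K))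
    (cξα : ∀ f g, Commute (ξ f) (α g)) (cξβ : ∀ f g, Commute (ξ f) (β g))
    (cαβ : ∀ f g, Commute (α f) (β g)) (cξν : ∀ f g, Commute (ξ f) (ν g))
    (cαν : ∀ f g, Commute (α f) (ν g)) (cβν : ∀ f g, Commute (β f) (ν g))
    (iα : ∀ f g, Nin Inc f g → α f * ν g = 0) (iβ : ∀ f g, Nin Inc f g → β f * ν g = 0)
    (kα : ∀ f g, Nin (Col Inc) f g → ξ f * α g = 0)
    (kβ : ∀ f g, Nin (Col Inc) f g → ξ f * β g = 0)
    (agr : ∀ ζ, (∀ f, α f ζ = β f ζ) → ζ = 0)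
    (f : C(X, ℂ)) (g : C(Z, ℂ)) (h : Nin Inc f g) : ξ f * ν g = 0 := by
  have hcol := isClosed_col hInc
  have hInc' : IsClosed {p : Z × X | Inc p.2 p.1} := hInc.preimage continuous_swap
  refine tot_left α β agr _ fun u v huv => ?_
  refine two_ind (A := K →L[ℂ] K) (S₁ := tsupport ⇑f) (S₂ := tsupport ⇑g)
    (fun f g => β v * α u * (ξ f * ν g))
    (fun f f' g => by simp only [map_add, add_mul, mul_add])
    (fun f g g' => by simp only [mul_add, map_add])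
    (isClosed_tsupport _).isCompact (isClosed_tsupport _).isCompact
    (fun x hx n hn => ?_) f g subset_rfl subset_rfl
  have hxn : ¬ Inc x n := h x hx n hn
  by_cases hc : ∀ y ∈ tsupport ⇑u, Col Inc x y → Inc y n → False
  · obtain ⟨u₁, u₂, hu, O, V, hO, hxO, hV, hnV, e1, e2⟩ :=
      split_inc (I₁ := Col Inc) (I₂ := fun n y => Inc y n) hcol hInc' u hc
    refine ⟨O, V, hO, hxO, hV, hnV, fun f' g' hf' hg' => ?_⟩
    have f1 : ξ f' * α u₁ = 0 := kα _ _ (e1 _ hf')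
    have f2 : α u₂ * ν g' = 0 := iα _ _ fun y hy n' hn' => e2 _ hg' n' hn' y hy
    show β v * α u * (ξ f' * ν g') = 0
    rw [hu, map_add, mul_add, add_mul]
    have g1 : β v * α u₁ * (ξ f' * ν g') = 0 := by
      rw [mul_assoc, ← mul_assoc (α u₁), ← (cξα f' u₁).eq, f1, zero_mul, mul_zero]
    have g2 : β v * α u₂ * (ξ f' * ν g') = 0 := by
      rw [mul_assoc, (cξν f' g').eq, ← mul_assoc (α u₂), f2, zero_mul, mul_zero]
    rw [g1, g2, add_zero]
  · push Not at hc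
    obtain ⟨y₀, hy₀, h1, h2, -⟩ := hc
    have hc' : ∀ y ∈ tsupport ⇑v, Col Inc x y → Inc y n → False := by
      intro y hy h3 h4
      have h5 := tri x n y y₀ hxn h4 h2 h3 h1
      rw [h5] at hy
      exact disjoint_left.1 huv hy₀ hy
    obtain ⟨v₁, v₂, hv, O, V, hO, hxO, hV, hnV, e1, e2⟩ :=
      split_inc (I₁ := Col Inc) (I₂ := fun n y => Inc y n) hcol hInc' v hc'
    refine ⟨O, V, hO, hxO, hV, hnV, fun f' g' hf' hg' => ?_⟩
    have f1 : ξ f' * β v₁ = 0 := kβ _ _ (e1 _ hf')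
    have f2 : β v₂ * ν g' = 0 := iβ _ _ fun y hy n' hn' => e2 _ hg' n' hn' y hy
    show β v * α u * (ξ f' * ν g') = 0
    rw [← (cαβ u v).eq, hv, map_add, mul_add, add_mul]
    have g1 : α u * β v₁ * (ξ f' * ν g') = 0 := by
      rw [mul_assoc, ← mul_assoc (β v₁), ← (cξβ f' v₁).eq, f1, zero_mul, mul_zero]
    have g2 : α u * β v₂ * (ξ f' * ν g') = 0 := by
      rw [mul_assoc, (cξν f' g').eq, ← mul_assoc (β v₂), f2, zero_mul, mul_zero]
    rw [g1, g2, add_zero]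

/-- **Step (b).** Two lines through two nowhere equal points are equal. -/
theorem step_b {Inc : X → Z → Prop} (hInc : IsClosed {p : X × Z | Inc p.1 p.2})
    (uniq : ∀ x x' n n', x ≠ x' → Inc x n → Inc x' n → Inc x n' → Inc x' n' → n = n')
    (α β : C(X, ℂ) →⋆ₐ[ℂ] (K →L[ℂ] K)) (ν ν' : C(Z, ℂ) →⋆ₐ[ℂ] (K →L[ℂ] K))
    (cαβ : ∀ f g, Commute (α f) (β g)) (cνν : ∀ f g, Commute (ν f) (ν' g))
    (iα : ∀ f g, Nin Inc f g → α f * ν g = 0) (iβ : ∀ f g, Nin Inc f g → β f * ν g = 0)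
    (iα' : ∀ f g, Nin Inc f g → α f * ν' g = 0) (iβ' : ∀ f g, Nin Inc f g → β f * ν' g = 0)
    (agr : ∀ ζ, (∀ f, α f ζ = β f ζ) → ζ = 0)
    (g g' : C(Z, ℂ)) (h : Disjoint (tsupport ⇑g) (tsupport ⇑g')) : ν g * ν' g' = 0 := by
  refine tot_left α β agr _ fun u v huv => ?_
  rw [← (cαβ u v).eq]
  refine two_ind (A := K →L[ℂ] K) (S₁ := tsupport ⇑u) (S₂ := tsupport ⇑v)
    (fun u v => α u * β v * (ν g * ν' g'))
    (fun f f' g => by simp only [map_add, add_mul, mul_add])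
    (fun f g g' => by simp only [mul_add, map_add, add_mul])
    (isClosed_tsupport _).isCompact (isClosed_tsupport _).isCompact
    (fun x hx y hy => ?_) u v subset_rfl subset_rfl
  have hxy : x ≠ y := fun e => disjoint_left.1 huv hx (e ▸ hy)
  by_cases hc : ∀ n ∈ tsupport ⇑g, Inc x n → Inc y n → False
  · obtain ⟨g₁, g₂, hg, O, V, hO, hxO, hV, hyV, e1, e2⟩ := split_inc hInc hInc g hc
    refine ⟨O, V, hO, hxO, hV, hyV, fun u' v' hu' hv' => ?_⟩
    have f1 : α u' * ν g₁ = 0 := iα _ _ (e1 _ hu')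
    have f2 : β v' * ν g₂ = 0 := iβ _ _ (e2 _ hv')
    show α u' * β v' * (ν g * ν' g') = 0
    rw [hg, map_add, add_mul, mul_add]
    have g1 : α u' * β v' * (ν g₁ * ν' g') = 0 := by
      rw [(cαβ u' v').eq, mul_assoc, ← mul_assoc (α u'), f1, zero_mul, mul_zero]
    have g2 : α u' * β v' * (ν g₂ * ν' g') = 0 := by
      rw [mul_assoc, ← mul_assoc (β v'), f2, zero_mul, mul_zero]
    rw [g1, g2, add_zero]
  · push Not at hc
    obtain ⟨n₀, hn₀, h1, h2, -⟩ := hc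
    have hc' : ∀ n ∈ tsupport ⇑g', Inc x n → Inc y n → False := by
      intro n hn h3 h4
      rw [uniq x y n n₀ hxy h3 h4 h1 h2] at hn
      exact disjoint_left.1 h hn₀ hn
    obtain ⟨g₁, g₂, hg, O, V, hO, hxO, hV, hyV, e1, e2⟩ := split_inc hInc hInc g' hc'
    refine ⟨O, V, hO, hxO, hV, hyV, fun u' v' hu' hv' => ?_⟩
    have f1 : α u' * ν' g₁ = 0 := iα' _ _ (e1 _ hu')
    have f2 : β v' * ν' g₂ = 0 := iβ' _ _ (e2 _ hv')
    show α u' * β v' * (ν g * ν' g') = 0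
    rw [(cνν g g').eq, hg, map_add, add_mul, mul_add]
    have g1 : α u' * β v' * (ν' g₁ * ν g) = 0 := by
      rw [(cαβ u' v').eq, mul_assoc, ← mul_assoc (α u'), f1, zero_mul, mul_zero]
    have g2 : α u' * β v' * (ν' g₂ * ν g) = 0 := by
      rw [mul_assoc, ← mul_assoc (β v'), f2, zero_mul, mul_zero]
    rw [g1, g2, add_zero]

/-- The vectors on which the values of `α` and `β` are collinear. -/
def Nc (Inc : X → Z → Prop) (α β : C(X, ℂ) →⋆ₐ[ℂ] (K →L[ℂ] K)) : Set K :=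
  {ζ | ∀ f g : C(X, ℂ), Nin (Col Inc) f g → α f (β g ζ) = 0}

/-- The hypotheses: all calculi commute, flags are incident, different calculi agree nowhere. -/
structure Fl {C M : Type*} (inc : C → M → Prop) (Inc : X → Z → Prop)
    (β : C → (C(X, ℂ) →⋆ₐ[ℂ] (K →L[ℂ] K))) (ν : M → (C(Z, ℂ) →⋆ₐ[ℂ] (K →L[ℂ] K))) : Prop where
  cββ : ∀ a b f g, Commute (β a f) (β b g)
  cβν : ∀ a m f g, Commute (β a f) (ν m g)
  cνν : ∀ m m' f g, Commute (ν m f) (ν m' g)
  flag : ∀ a m, inc a m → ∀ f g, Nin Inc f g → β a f * ν m g = 0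
  agr : ∀ a b, a ≠ b → ∀ ζ, (∀ f, β a f ζ = β b f ζ) → ζ = 0
  agr' : ∀ m m', m ≠ m' → ∀ ζ, (∀ f, ν m f ζ = ν m' f ζ) → ζ = 0

/-- **Not all pairs are collinear.** -/
theorem not_all_col [Nontrivial K] {C M : Type*} {inc : C → M → Prop} {Inc : X → Z → Prop}
    (hInc : IsClosed {p : X × Z | Inc p.1 p.2})
    (uniq : ∀ x x' n n', x ≠ x' → Inc x n → Inc x' n → Inc x n' → Inc x' n' → n = n')
    (tri : ∀ x n y y', ¬ Inc x n → Inc y n → Inc y' n → Col Inc x y → Col Inc x y' → y = y')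
    (two : ∀ m, ∃ a b, a ≠ b ∧ inc a m ∧ inc b m) (mm : ∃ m m' : M, m ≠ m')
    {β : C → (C(X, ℂ) →⋆ₐ[ℂ] (K →L[ℂ] K))} {ν : M → (C(Z, ℂ) →⋆ₐ[ℂ] (K →L[ℂ] K))}
    (hF : Fl inc Inc β ν) (bad : ∀ a b, a ≠ b → (¬ ∃ m, inc a m ∧ inc b m) →
      Nc Inc (β a) (β b) = univ) : False := by
  -- all pairs of points are collinear
  have hcol : ∀ a b, a ≠ b → ∀ f g, Nin (Col Inc) f g → β a f * β b g = 0 := by
    intro a b hab f g hfg
    by_cases h : ∃ m, inc a m ∧ inc b m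
    · obtain ⟨m, ha, hb⟩ := h
      exact col_of_flag hInc (β a) (β b) (ν m) (hF.cββ a b) (hF.flag a m ha) (hF.flag b m hb) f g
        hfg
    · have h1 := bad a b hab h
      ext ζ
      have h2 : ζ ∈ Nc Inc (β a) (β b) := by rw [h1]; exact mem_univ _
      exact h2 f g hfg
  -- step (a)
  have ha : ∀ x m f g, Nin Inc f g → β x f * ν m g = 0 := by
    intro x m f g hfg
    by_cases hxm : inc x m
    · exact hF.flag x m hxm f g hfg
    obtain ⟨a, b, hab, ha, hb⟩ := two m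
    have hxa : x ≠ a := fun e => hxm (e ▸ ha)
    have hxb : x ≠ b := fun e => hxm (e ▸ hb)
    exact step_a hInc tri (β x) (β a) (β b) (ν m) (hF.cββ x a) (hF.cββ x b) (hF.cββ a b)
      (hF.cβν x m) (hF.cβν a m) (hF.cβν b m) (hF.flag a m ha) (hF.flag b m hb) (hcol x a hxa)
      (hcol x b hxb) (hF.agr a b hab) f g hfg
  -- step (b)
  obtain ⟨m, m', hm⟩ := mm
  obtain ⟨a, b, hab, -, -⟩ := two m'
  obtain ⟨ζ, hζ⟩ := exists_ne (0 : K)
  apply hζ
  refine tot_vec (ν m) (ν m') (hF.agr' m m' hm) ζ fun g g' hgg => ?_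
  have h1 := step_b hInc uniq (β a) (β b) (ν m) (ν m') (hF.cββ a b) (hF.cνν m m') (ha a m)
    (ha b m) (ha a m') (ha b m') (hF.agr a b hab) g g' hgg
  have h2 := congrArg (fun S : K →L[ℂ] K => S ζ) h1
  rw [(hF.cνν m m' g g').eq] at h2
  exact h2

/-- **[P-OPPINC].** If collinearity of the values is a zero-one event, uniformly in the opposite
pair, opposite points have opposite values. -/
theorem opp_inc [Nontrivial K] {C M : Type*} {inc : C → M → Prop} {Inc : X → Z → Prop}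
    (hInc : IsClosed {p : X × Z | Inc p.1 p.2})
    (uniq : ∀ x x' n n', x ≠ x' → Inc x n → Inc x' n → Inc x n' → Inc x' n' → n = n')
    (tri : ∀ x n y y', ¬ Inc x n → Inc y n → Inc y' n → Col Inc x y → Col Inc x y' → y = y')
    (two : ∀ m, ∃ a b, a ≠ b ∧ inc a m ∧ inc b m) (mm : ∃ m m' : M, m ≠ m')
    {β : C → (C(X, ℂ) →⋆ₐ[ℂ] (K →L[ℂ] K))} {ν : M → (C(Z, ℂ) →⋆ₐ[ℂ] (K →L[ℂ] K))}
    (hF : Fl inc Inc β ν)
    (zo : ∀ a b, a ≠ b → (¬ ∃ m, inc a m ∧ inc b m) → (∀ ζ ∈ Nc Inc (β a) (β b), ζ = 0) ∨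
      Nc Inc (β a) (β b) = univ)
    (tr : ∀ a b, a ≠ b → (¬ ∃ m, inc a m ∧ inc b m) → Nc Inc (β a) (β b) = univ →
      ∀ a' b', a' ≠ b' → (¬ ∃ m, inc a' m ∧ inc b' m) → Nc Inc (β a') (β b') = univ)
    {a b : C} (hab : a ≠ b) (hop : ¬ ∃ m, inc a m ∧ inc b m) :
    ∀ ζ, (∀ f g : C(X, ℂ), Nin (Col Inc) f g → β a f (β b g ζ) = 0) → ζ = 0 := by
  rcases zo a b hab hop with h | h
  · exact h
  · exact (not_all_col hInc uniq tri two mm hF (tr a b hab hop h)).elim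

end quad

end Vale.Agent.P092.H821.P
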