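import Vale.Agent.P092.H821.P.Opp
import Vale.Agent.P092.RC.Defs

/-!
P092, Team P (helper821), [P-OPPINC], part 2: the zero-one law from the ergodicity of the picture, and the
final form.
-/

set_option linter.all false

namespace Vale.Agent.P092.H821.P

open Set Topology ContinuousLinearMap
open Vale.Agent.P092.H218 (mul_ap)
open Vale.Agent.P092.H232 (Nin)
open Vale.Agent.P092.H831 (comm_of_inv)
open Vale.Agent.P092.RC (Cm Moore)

section zo

variable {K : Type*} [NormedAddCommGroup K] [InnerProductSpace ℂ K] [CompleteSpace K]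

/-- A closed subspace whose projection is scalar is zero or everything. -/
theorem zo_of_scalar (N : Submodule ℂ K) [N.HasOrthogonalProjection] {z : ℂ}
    (h : N.starProjection = z • (1 : K →L[ℂ] K)) : (∀ ζ ∈ N, ζ = 0) ∨ ∀ ζ, ζ ∈ N := by
  by_cases h0 : ∀ ζ ∈ N, ζ = 0
  · exact Or.inl h0
  · right
    push Not at h0
    obtain ⟨ζ, hζ, hζ0⟩ := h0
    have h1 : N.starProjection ζ = ζ := Submodule.starProjection_eq_self_iff.2 hζ
    rw [h] at h1
    have h2 : z • ζ = ζ := h1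
    have hz : z = 1 := by
      have h3 : (z - 1) • ζ = 0 := by rw [sub_smul, h2, one_smul, sub_self]
      exact sub_eq_zero.1 ((smul_eq_zero.1 h3).resolve_right hζ0)
    intro η
    have h4 : N.starProjection η = η := by
      rw [h, hz, one_smul]
      rfl
    exact Submodule.starProjection_eq_self_iff.1 h4

end zo

section law

variable {X Z K G Γ : Type} [TopologicalSpace X] [CompactSpace X] [T2Space X]
  [TopologicalSpace Z] [CompactSpace Z] [T2Space Z]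
  [NormedAddCommGroup K] [InnerProductSpace ℂ K] [CompleteSpace K] [Group G] [Group Γ]
  {π : G →* (K →L[ℂ] K)} {lam : Γ →* (K →L[ℂ] K)} {W : Set (K →L[ℂ] K)}

/-- The vectors with collinear values, as a subspace. -/
def NcS (Inc : X → Z → Prop) (α β : C(X, ℂ) →⋆ₐ[ℂ] (K →L[ℂ] K)) : Submodule ℂ K where
  carrier := Nc Inc α β
  add_mem' := by
    intro x y hx hy f g hfg
    rw [map_add, map_add, hx f g hfg, hy f g hfg, add_zero]
  zero_mem' := by
    intro f g hfg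
    rw [map_zero, map_zero]
  smul_mem' := by
    intro c x hx f g hfg
    rw [map_smul, map_smul, hx f g hfg, smul_zero]


theorem isClosed_NcS (Inc : X → Z → Prop) (α β : C(X, ℂ) →⋆ₐ[ℂ] (K →L[ℂ] K)) :
    IsClosed ((NcS Inc α β : Submodule ℂ K) : Set K) := by
  have e : ((NcS Inc α β : Submodule ℂ K) : Set K) =
      ⋂ (f : C(X, ℂ)) (g : C(X, ℂ)) (_ : Nin (Col Inc) f g), {ζ | α f (β g ζ) = 0} := by
    ext ζ
    simp only [mem_iInter, mem_setOf_eq]
    rfl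
  rw [e]
  refine isClosed_iInter fun f => isClosed_iInter fun g => isClosed_iInter fun _ => ?_
  exact isClosed_eq ((α f).continuous.comp (β g).continuous) continuous_const

/-- Transport of the vectors with collinear values. -/
theorem nc_map {Inc : X → Z → Prop} {α β α' β' : C(X, ℂ) →⋆ₐ[ℂ] (K →L[ℂ] K)} {T T' : K →L[ℂ] K}
    (hT : T' * T = 1) {p p' : C(X, ℂ) → C(X, ℂ)}
    (hp : ∀ f g, Nin (Col Inc) f g → Nin (Col Inc) (p f) (p' g))
    (hα : ∀ f, α' f * T = T * α (p f)) (hβ : ∀ g, β' g * T = T * β (p' g)) {ζ : K}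
    (h : ζ ∈ Nc Inc α β) : T ζ ∈ Nc Inc α' β' := by
  intro f g hfg
  have h1 : α' f * β' g * T = T * (α (p f) * β (p' g)) := by
    rw [mul_assoc, hβ, ← mul_assoc, hα, mul_assoc]
  have h2 := congrArg (fun S : K →L[ℂ] K => S ζ) h1
  have h3 : α' f (β' g (T ζ)) = T (α (p f) (β (p' g) ζ)) := h2
  rw [h3, h _ _ (hp f g hfg), map_zero]

/-- **The zero-one law.** -/
theorem zo_law {Inc : X → Z → Prop} {α β : C(X, ℂ) →⋆ₐ[ℂ] (K →L[ℂ] K)}
    (adjP : ∀ g, adjoint (π g) = π g⁻¹) (adjL : ∀ γ, adjoint (lam γ) = lam γ⁻¹)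
    (Wadj : ∀ w ∈ W, adjoint w ∈ W) {S : Set G}
    (erg : ∀ T, Cm W T → (∀ γ, T * lam γ = lam γ * T) → (∀ g ∈ S, T * π g = π g * T) →
      ∃ z : ℂ, T = z • (1 : K →L[ℂ] K))
    (cmα : ∀ f, Cm W (α f)) (cmβ : ∀ f, Cm W (β f))
    {act : Γ → C(X, ℂ) → C(X, ℂ)}
    (covα : ∀ γ f, lam γ * α f * lam γ⁻¹ = α (act γ f))
    (covβ : ∀ γ f, lam γ * β f * lam γ⁻¹ = β (act γ f))
    (hact : ∀ γ f g, Nin (Col Inc) f g → Nin (Col Inc) (act γ f) (act γ g))
    (fixα : ∀ s ∈ S, ∀ f, α f * π s = π s * α f) (fixβ : ∀ s ∈ S, ∀ f, β f * π s = π s * β f) :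
    (∀ ζ ∈ Nc Inc α β, ζ = 0) ∨ Nc Inc α β = univ := by
  have hcl := isClosed_NcS Inc α β
  have : CompleteSpace (NcS Inc α β) := hcl.completeSpace_coe
  have hWm : ∀ w ∈ W, ∀ ζ ∈ NcS Inc α β, w ζ ∈ NcS Inc α β := by
    intro w hw ζ hζ f g hfg
    have h1 : α f * β g * w = w * (α f * β g) := by
      rw [mul_assoc, cmβ g w hw, ← mul_assoc, cmα f w hw, mul_assoc]
    have h2 : α f (β g (w ζ)) = w (α f (β g ζ)) := congrArg (fun S : K →L[ℂ] K => S ζ) h1
    rw [h2, hζ f g hfg, map_zero]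
  have hLm : ∀ γ, ∀ ζ ∈ NcS Inc α β, lam γ ζ ∈ NcS Inc α β := by
    intro γ ζ hζ
    have hl : lam γ⁻¹ * lam γ = 1 := by rw [← map_mul, inv_mul_cancel, map_one]
    have hl' : lam γ * lam γ⁻¹ = 1 := by rw [← map_mul, mul_inv_cancel, map_one]
    refine nc_map (T' := lam γ⁻¹) (p := act γ⁻¹) (p' := act γ⁻¹) hl (hact γ⁻¹) (fun f => ?_)
      (fun g => ?_) hζ
    · have h1 := covα γ⁻¹ f
      rw [inv_inv] at h1
      rw [← h1, ← mul_assoc, ← mul_assoc, hl', one_mul]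
    · have h1 := covβ γ⁻¹ g
      rw [inv_inv] at h1
      rw [← h1, ← mul_assoc, ← mul_assoc, hl', one_mul]
  have hPm : ∀ s, (∀ f, α f * π s = π s * α f) → (∀ f, β f * π s = π s * β f) →
      ∀ ζ ∈ NcS Inc α β, π s ζ ∈ NcS Inc α β := by
    intro s h1 h2 ζ hζ
    have hl : π s⁻¹ * π s = 1 := by rw [← map_mul, inv_mul_cancel, map_one]
    exact nc_map (T' := π s⁻¹) (p := fun f => f) (p' := fun f => f) hl (fun f g h => h) h1 h2 hζ
  obtain ⟨z, hz⟩ := erg (NcS Inc α β).starProjection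
    (fun w hw => (comm_of_inv _ w (hWm w hw) (hWm _ (Wadj w hw))).symm.eq)
    (fun γ => (comm_of_inv _ (lam γ) (hLm γ) (by
      have h1 : star (lam γ) = lam γ⁻¹ := adjL γ
      rw [h1]
      exact hLm γ⁻¹)).symm.eq)
    (fun s hs => (comm_of_inv _ (π s) (hPm s (fixα s hs) (fixβ s hs)) (by
      have h1 : star (π s) = π s⁻¹ := adjP s
      have hl : π s⁻¹ * π s = 1 := by rw [← map_mul, inv_mul_cancel, map_one]
      have hl' : π s * π s⁻¹ = 1 := by rw [← map_mul, mul_inv_cancel, map_one]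
      have inv : ∀ A : K →L[ℂ] K, A * π s = π s * A → A * π s⁻¹ = π s⁻¹ * A := by
        intro A hA
        calc A * π s⁻¹ = π s⁻¹ * π s * (A * π s⁻¹) := by rw [hl, one_mul]
          _ = π s⁻¹ * (A * π s) * π s⁻¹ := by rw [hA]; simp only [mul_assoc]
          _ = π s⁻¹ * A := by rw [mul_assoc, mul_assoc, hl', mul_one]
      rw [h1]
      exact hPm s⁻¹ (fun f => inv _ (fixα s hs f)) (fun f => inv _ (fixβ s hs f)))).symm.eq)
  rcases zo_of_scalar _ hz with h | h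
  · exact Or.inl h
  · exact Or.inr (eq_univ_of_forall h)

/-- **[P-OPPINC], final form.** `H` = the source group acting on the source points, `ι : H → G`,
`π (ι h) β_a π (ι h)⁻¹ = β_(h a)`, `H` transitive on the opposite pairs with a Moore stabiliser. -/
theorem opp_inc_pic [Nontrivial K] [TopologicalSpace G] {H C M : Type} [Group H] [MulAction H C]
    {ι : H →* G} {inc : C → M → Prop} {Inc : X → Z → Prop}
    (hInc : IsClosed {p : X × Z | Inc p.1 p.2})
    (uniq : ∀ x x' n n', x ≠ x' → Inc x n → Inc x' n → Inc x n' → Inc x' n' → n = n')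
    (tri : ∀ x n y y', ¬ Inc x n → Inc y n → Inc y' n → Col Inc x y → Col Inc x y' → y = y')
    (two : ∀ m, ∃ a b, a ≠ b ∧ inc a m ∧ inc b m) (mm : ∃ m m' : M, m ≠ m')
    {β : C → (C(X, ℂ) →⋆ₐ[ℂ] (K →L[ℂ] K))} {ν : M → (C(Z, ℂ) →⋆ₐ[ℂ] (K →L[ℂ] K))}
    (hF : Fl inc Inc β ν)
    (adjP : ∀ g, adjoint (π g) = π g⁻¹) (adjL : ∀ γ, adjoint (lam γ) = lam γ⁻¹)
    (Wadj : ∀ w ∈ W, adjoint w ∈ W)
    (erg : ∀ S : Set G, Moore S → ∀ T, Cm W T → (∀ γ, T * lam γ = lam γ * T) →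
      (∀ g ∈ S, T * π g = π g * T) → ∃ z : ℂ, T = z • (1 : K →L[ℂ] K))
    (cm : ∀ a f, Cm W (β a f)) {act : Γ → C(X, ℂ) → C(X, ℂ)}
    (cov : ∀ a γ f, lam γ * β a f * lam γ⁻¹ = β a (act γ f))
    (hact : ∀ γ f g, Nin (Col Inc) f g → Nin (Col Inc) (act γ f) (act γ g))
    (pcov : ∀ h a f, π (ι h) * β a f * π (ι h)⁻¹ = β (h • a) f)
    (moore : ∀ a b, a ≠ b → (¬ ∃ m, inc a m ∧ inc b m) →
      Moore (ι '' {h | h • a = a ∧ h • b = b}))
    (trans : ∀ a b, a ≠ b → (¬ ∃ m, inc a m ∧ inc b m) → ∀ a' b', a' ≠ b' →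
      (¬ ∃ m, inc a' m ∧ inc b' m) → ∃ h : H, h • a = a' ∧ h • b = b')
    {a b : C} (hab : a ≠ b) (hop : ¬ ∃ m, inc a m ∧ inc b m) :
    ∀ ζ, (∀ f g : C(X, ℂ), Nin (Col Inc) f g → β a f (β b g ζ) = 0) → ζ = 0 := by
  have hι : ∀ h : H, π (ι h)⁻¹ * π (ι h) = 1 := fun h => by
    rw [← map_mul, inv_mul_cancel, map_one]
  have hcov : ∀ (h : H) (a : C) (f : C(X, ℂ)), β (h • a) f * π (ι h) = π (ι h) * β a f := by
    intro h a f
    rw [← pcov, mul_assoc, hι, mul_one]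
  refine opp_inc hInc uniq tri two mm hF (fun a b hab hop => ?_)
    (fun a b hab hop hN a' b' hab' hop' => ?_) hab hop
  · refine zo_law adjP adjL Wadj (erg _ (moore a b hab hop)) (cm a) (cm b) (cov a) (cov b) hact
      ?_ ?_
    · rintro _ ⟨h, ⟨h1, -⟩, rfl⟩ f
      have := hcov h a f
      rwa [h1] at this
    · rintro _ ⟨h, ⟨-, h2⟩, rfl⟩ f
      have := hcov h b f
      rwa [h2] at this
  · obtain ⟨h, rfl, rfl⟩ := trans a b hab hop a' b' hab' hop'
    refine eq_univ_of_forall fun ζ => ?_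
    have h1 : π (ι h)⁻¹ ζ ∈ Nc Inc (β a) (β b) := by rw [hN]; exact mem_univ _
    have h2 := nc_map (T := π (ι h)) (T' := π (ι h)⁻¹) (p := fun f => f) (p' := fun f => f)
      (hι h) (fun f g h => h) (hcov h a) (hcov h b) h1
    have h3 : π (ι h) (π (ι h)⁻¹ ζ) = ζ := by
      have h4 : π (ι h) * π (ι h)⁻¹ = 1 := by rw [← map_mul, mul_inv_cancel, map_one]
      exact congrArg (fun S : K →L[ℂ] K => S ζ) h4
    rwa [h3] at h2

end law

end Vale.Agent.P092.H821.P
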